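import Vale.Agent.P057.Main

/-! An improved constant in the Behrend-type lower bound for `r_3(N)`. -/

namespace Vale.Agent.Results.P057.Behrend

theorem result : ∀ ε : ℝ, 0 < ε → ∀ᶠ N : ℕ in Filter.atTop, ∃ A : Finset ℕ,
    A ⊆ Finset.Icc 1 N ∧
    (∀ a d : ℕ, 0 < d → ¬ (a ∈ A ∧ a + d ∈ A ∧ a + 2 * d ∈ A)) ∧
    (N : ℝ) * Real.exp (-(2 * Real.sqrt (Real.log (240 / 71)) + ε) *
      Real.sqrt (Real.log (N : ℝ))) ≤ (A.card : ℝ) :=
  fun _ hε => Vale.Agent.P057.main hε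

end Vale.Agent.Results.P057.Behrend
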